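import Crest.Agent.X261.Reg.Lse

/-!
# Row 261, package REG (helper71), file `Main`

Regularization of `ω`-psh functions on manifolds of bounded geometry (Demailly 1992, gluing of
local regularizations): `G.rg H p μ u`, the loss of curvature `G.eps p + G.lam H p μ u`.
-/

set_option autoImplicit false
set_option linter.dupNamespace false
set_option linter.unusedSectionVars false

open Set Filter Topology Metric
open scoped ContDiff ComplexConjugate

noncomputable section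

namespace Crest.Agent.X261.Reg

open Crest.Agent.R275.Geo Crest.Agent.R275.Core144
open Crest.Agent.R273.Hess_333 Crest.Agent.R273.HessB_333
open Crest.Agent.R273.Kah_333 (hsf)
open Crest.Agent.R273.GreenM_5 (ci mem_ci)
open Crest.Agent.R281.Kp_487 (KP cur Tm_hol uj_contDiffAt hess_wt_uj wt_contDiffAt)
open Crest.Agent.X277.AN
open Crest.Agent.X261.Psh Crest.Agent.X261.Psh.Kis

variable {n : ℕ} {M : Type} [TopologicalSpace M] {A : Atl n M}

section psh

variable {H : KP A} {u u' : M → EReal}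

theorem wt_e (H : KP A) {j : A.ι} {x : M} (hx : x ∈ (A.e j).source) :
    H.wt j (A.e j x) = H.u j x := by
  simp only [KP.wt, (A.e j).left_inv hx]

theorem uj_e (H : KP A) (u : M → EReal) {j : A.ι} {x : M} (hx : x ∈ (A.e j).source) :
    uj H u j (A.e j x) = u x + (H.wt j (A.e j x) : ℝ) := by
  simp only [uj, (A.e j).left_inv hx]

theorem add_coe_ne_bot {a : EReal} {c : ℝ} : a + c ≠ ⊥ ↔ a ≠ ⊥ := by
  simp [EReal.add_eq_bot_iff]

theorem dn_uj (H : KP A) (hd : Dn univ u) (j : A.ι) : Dn (A.e j).target (uj H u j) := by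
  intro z hz
  have h1 := hd ((A.e j).symm z) (mem_univ _)
  rw [← (A.e j).symm.map_nhds_eq hz, frequently_map] at h1
  exact h1.mono fun w hw => add_coe_ne_bot.2 hw

theorem freq_of_uj {j : A.ι} {x : M} (hx : x ∈ (A.e j).source)
    (h : ∃ᶠ z in 𝓝 (A.e j x), uj H u j z ≠ ⊥) : ∃ᶠ y in 𝓝 x, u y ≠ ⊥ := by
  have h1 := (A.e j).symm.map_nhds_eq ((A.e j).map_source hx)
  rw [(A.e j).left_inv hx] at h1
  rw [← h1, frequently_map]
  exact h.mono fun w hw => add_coe_ne_bot.1 hw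

theorem PshW.lt_top (h : PshW H u) (x : M) : u x < ⊤ := by
  have h1 := (h (ci A x)).lt_top _ ((A.e _).map_source (mem_ci x))
  rw [uj_e H u (mem_ci x)] at h1
  refine lt_top_iff_ne_top.2 fun h2 => h1.ne ?_
  rw [h2, EReal.top_add_coe]

theorem PshW.usc (h : PshW H u) : UpperSemicontinuous u := by
  intro x b hb
  obtain ⟨c, h1, h2⟩ := EReal.lt_iff_exists_real_btwn.1 hb
  have hx := mem_ci (A := A) x
  set j := ci A x
  have hz := (A.e j).map_source hx
  have h3 : uj H u j (A.e j x) < ((c + H.wt j (A.e j x) : ℝ) : EReal) := by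
    rw [uj_e H u hx, add_coe_lt_iff]
    simpa using h1
  have h4 := ev_lt (K := univ) (g := fun z => c + H.wt j z)
    (((h j).uscAt (A.e j).open_target hz).upperSemicontinuousWithinAt _)
    (continuousAt_const.add (wt_contDiffAt H j hz).continuousAt).continuousWithinAt h3
  rw [nhdsWithin_univ] at h4
  filter_upwards [((A.e j).continuousAt hx).eventually h4, (A.e j).open_source.mem_nhds hx]
    with y h5 hy
  rw [uj_e H u hy, add_coe_lt_iff] at h5
  refine lt_trans ?_ h2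
  simpa using h5

theorem PshW.measurable [MeasurableSpace M] [OpensMeasurableSpace M] (h : PshW H u) :
    Measurable u := h.usc.measurable

end psh

namespace BG

variable {g : Mat A} (G : BG A g)

theorem L0 : 0 < G.Λ := zero_lt_one.trans_le G.Λ1

theorem rad_pos (μ : ℕ) : 0 < G.rad μ := by
  have := G.r0
  have := G.L0
  unfold rad
  positivity

theorem rad_succ (μ : ℕ) : 3 * G.rad (μ + 1) = G.rad μ := by
  unfold rad
  rw [pow_succ]
  field_simp

theorem rad_le (μ : ℕ) : 3 * G.Λ * G.rad μ ≤ G.r / 2 := by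
  have h0 := G.r0
  have h1 := G.L0
  have h2 : G.rad μ ≤ G.r / (6 * G.Λ) :=
    div_le_self (by positivity) (one_le_pow₀ (by norm_num))
  refine (mul_le_mul_of_nonneg_left h2 (by positivity)).trans_eq ?_
  field_simp
  ring

theorem rad_le' (μ : ℕ) : 3 * G.rad μ ≤ G.r / 2 := by
  nlinarith [G.rad_le μ, G.rad_pos μ, G.Λ1]

theorem rad_le_r (μ : ℕ) : 3 * G.rad μ ≤ G.r := by
  linarith [G.rad_le' μ, G.r0]

theorem tendsto_rad : Tendsto (fun μ => 3 * G.rad μ) atTop (𝓝 0) := by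
  have h := (tendsto_pow_atTop_atTop_of_one_lt (show (1 : ℝ) < 3 by norm_num)).const_div_atTop
    (G.r / (6 * G.Λ))
  simpa [rad] using h.const_mul 3

theorem cball {j : A.ι} {x : M} (hx : x ∈ tsupport (G.χ j)) (μ : ℕ) :
    closedBall (A.e j x) (3 * G.rad μ) ⊆ (A.e j).target :=
  (closedBall_subset_closedBall (G.rad_le_r μ)).trans (G.ball j x hx)

/-- the local regularizations -/
def aj (H : KP A) (μ : ℕ) (u : M → EReal) (j : A.ι) (x : M) : ℝ :=
  smo n (G.rad μ) (uj H u j) (A.e j x) - H.wt j (A.e j x)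

/-- the regularization of `u` -/
def rg (H : KP A) (p : ℝ) (μ : ℕ) (u : M → EReal) : M → ℝ := G.lse p (G.aj H μ u)

/-- the part of the loss of curvature that tends to zero with `μ` -/
def lam (H : KP A) (p : ℝ) (μ : ℕ) (u : M → EReal) (x : M) : ℝ :=
  max (G.los p (G.aj H μ u) x - G.eps p) 0

/-- the bound for the oscillation of the local regularizations -/
def osc (C L : ℝ) : ℝ := (2 * C + 2 * L * G.r) / Real.log 2 * Real.log (3 * G.Λ) + L * G.r

variable {G} {H : KP A} {u u' : M → EReal} {p : ℝ} {μ : ℕ} {x : M} {C L : ℝ}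

theorem Unif.dn (hU : G.Unif u C) (h : PshW H u) : Dn univ u := by
  intro x _
  obtain ⟨j, hj⟩ := G.one x
  have hx := G.mem_of_one hj
  obtain ⟨z, hz, h1⟩ := hU.2 j x hx
  have h2 := ((h j).mono (ball_subset_closedBall.trans (G.ball j x hx))).dn_of_conn isOpen_ball
    (convex_ball _ _).isPreconnected ⟨z, closedBall_subset_ball (by linarith [G.r0]) hz,
      add_coe_ne_bot.2 ((EReal.bot_lt_coe _).trans_le h1).ne'⟩
  exact freq_of_uj (G.sub j hx) (h2 _ (mem_ball_self G.r0))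

variable (G)

theorem smo_spec (h : PshW H u) (hd : Dn univ u) (μ : ℕ) {j : A.ι} (hx : x ∈ tsupport (G.χ j)) :
    ContDiffAt ℝ ∞ (smo n (G.rad μ) (uj H u j)) (A.e j x) ∧
      (∀ ξ, 0 ≤ qf (hess (smo n (G.rad μ) (uj H u j)) (A.e j x)) ξ) ∧
      bsup (uj H u j) (A.e j x) (G.rad μ) ≤ smo n (G.rad μ) (uj H u j) (A.e j x) ∧
      (smo n (G.rad μ) (uj H u j) (A.e j x) : EReal) ≤ bsup (uj H u j) (A.e j x) (3 * G.rad μ) :=
  (smOp_smo n).sm _ _ _ _ (A.e j).open_target (h j) (dn_uj H hd j) (G.rad_pos μ) (G.cball hx μ)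

theorem aj_sx (h : PshW H u) (hd : Dn univ u) (μ : ℕ) {j : A.ι} (hx : x ∈ tsupport (G.χ j))
    {i : A.ι} (hi : x ∈ (A.e i).source) :
    SX A (G.aj H μ u j) i x ∧ ∀ ξ, 0 ≤ qf (cur H i x) ξ + qf (hsf A (G.aj H μ u j) i x) ξ := by
  obtain ⟨h1, h2, -⟩ := G.smo_spec h hd μ hx
  have hj := G.sub j hx
  have li := (A.e i).left_inv hi
  have s1 : SX A (fun y => smo n (G.rad μ) (uj H u j) (A.e j y)) i x :=
    ContDiffAt.comp (A.e i x) (g := smo n (G.rad μ) (uj H u j))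
      (f := fun w => A.e j ((A.e i).symm w)) (by rw [li]; exact h1) (Tm_hol ⟨hi, hj⟩)
  have s2 : SX A (H.u j) i x := uj_contDiffAt H ⟨hi, hj⟩
  have e : G.aj H μ u j =ᶠ[𝓝 x] fun y => smo n (G.rad μ) (uj H u j) (A.e j y) - H.u j y := by
    filter_upwards [(A.e j).open_source.mem_nhds hj] with y hy
    rw [aj, wt_e H hy]
  refine ⟨(s1.sub s2).congr hi e, fun ξ => ?_⟩
  have e2 : cur H i x = hsf A (H.u j) i x := hess_wt_uj H ⟨hi, hj⟩
  rw [hsf_congr hi e, qx_sub s1 s2, e2, add_sub_cancel]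
  refine qf_comp_nonneg (u := smo n (G.rad μ) (uj H u j)) (T := fun w => A.e j ((A.e i).symm w))
    (by rw [li]; exact h1) ?_ (by rw [li]; exact h2) ξ
  filter_upwards [(isOpen_ov i j).mem_nhds (mem_ov ⟨hi, hj⟩)] with w hw
  exact (A.holo i j).differentiableAt ((isOpen_ov i j).mem_nhds hw)

theorem loc_aj (h : PshW H u) (hd : Dn univ u) (μ : ℕ) : G.Loc (G.aj H μ u) :=
  fun _ _ hx _ hi => (G.aj_sx h hd μ hx hi).1

theorem le_aj (h : PshW H u) (hd : Dn univ u) (μ : ℕ) {j : A.ι} (hx : x ∈ tsupport (G.χ j)) :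
    u x ≤ G.aj H μ u j x := by
  have h1 := (self_le_bsup _ _ (G.rad_pos μ).le).trans (G.smo_spec h hd μ hx).2.2.1
  rwa [uj_e H u (G.sub j hx), add_coe_le_iff] at h1

theorem aj_le (h : PshW H u) (hd : Dn univ u) (μ : ℕ) {j : A.ι} (hx : x ∈ tsupport (G.χ j))
    {b : ℝ} (hb : bsup (uj H u j) (A.e j x) (3 * G.rad μ) ≤ ((b + H.wt j (A.e j x) : ℝ) : EReal)) :
    G.aj H μ u j x ≤ b := by
  have h1 := EReal.coe_le_coe_iff.1 ((G.smo_spec h hd μ hx).2.2.2.trans hb)
  unfold aj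
  linarith

theorem aj_succ (h : PshW H u) (hd : Dn univ u) (μ : ℕ) {j : A.ι} (hx : x ∈ tsupport (G.χ j)) :
    G.aj H (μ + 1) u j x ≤ G.aj H μ u j x := by
  refine G.aj_le h hd (μ + 1) hx ?_
  rw [G.rad_succ, aj, sub_add_cancel]
  exact (G.smo_spec h hd μ hx).2.2.1

theorem ev_aj_le (h : PshW H u) (hd : Dn univ u) {b : ℝ} (hb : u x < b) :
    ∀ᶠ μ in atTop, ∀ j, x ∈ tsupport (G.χ j) → G.aj H μ u j x ≤ b := by
  refine (eventually_all_finite (G.fin_J x)).2 fun j hx => ?_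
  have h1 : uj H u j (A.e j x) < ((b + H.wt j (A.e j x) : ℝ) : EReal) := by
    rw [uj_e H u (G.sub j hx), add_coe_lt_iff]
    simpa using hb
  filter_upwards [G.tendsto_rad.eventually (ev_bsup_le ((h j).uscAt (A.e j).open_target
    ((A.e j).map_source (G.sub j hx))) h1)] with μ h2
  exact G.aj_le h hd μ hx h2

theorem rg_sm (h : PshW H u) (hd : Dn univ u) (p : ℝ) (μ : ℕ) : A.Sm (G.rg H p μ u) :=
  (G.loc_aj h hd μ).sm_lse

theorem rg_anti (h : PshW H u) (hd : Dn univ u) (hp : 0 < p) (x : M) :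
    Antitone fun μ => G.rg H p μ u x := antitone_nat_of_succ_le fun μ => by
  simpa [rg] using G.lse_le (c := 0) hp fun j hj => by simpa using G.aj_succ h hd μ hj

theorem le_rg (h : PshW H u) (hd : Dn univ u) (hp : 0 < p) (μ : ℕ) (x : M) :
    u x + (G.cor p x : ℝ) ≤ (G.rg H p μ u x : ℝ) := by
  induction' e : u x with c
  · simp
  · rw [← EReal.coe_add, EReal.coe_le_coe_iff]
    exact G.cor_le_lse hp fun j hj => EReal.coe_le_coe_iff.1 (e ▸ G.le_aj h hd μ hj)
  · exact absurd e (h.lt_top x).ne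

theorem le_rg' (h : PshW H u) (hd : Dn univ u) (hp : 0 < p) (μ : ℕ) (x : M) :
    u x ≤ (G.rg H p μ u x : ℝ) :=
  (le_add_of_nonneg_right (EReal.coe_nonneg.2 (G.cor_nonneg hp x))).trans (G.le_rg h hd hp μ x)

theorem ev_rg_le (h : PshW H u) (hd : Dn univ u) (hp : 0 < p) {b : ℝ} (hb : u x < b) :
    ∀ᶠ μ in atTop, G.rg H p μ u x ≤ b + G.cor p x :=
  (G.ev_aj_le h hd hb).mono fun _ h1 => G.lse_le_cor hp h1

theorem rg_tendsto (h : PshW H u) (hd : Dn univ u) (hp : 0 < p) (x : M) :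
    Tendsto (fun μ => (G.rg H p μ u x : EReal)) atTop (𝓝 (u x + (G.cor p x : ℝ))) := by
  refine tendsto_order.2 ⟨fun a ha => Eventually.of_forall fun μ =>
    ha.trans_le (G.le_rg h hd hp μ x), fun a ha => ?_⟩
  obtain ⟨c, h1, h2⟩ := EReal.lt_iff_exists_real_btwn.1 ha
  filter_upwards [G.ev_rg_le h hd hp (add_coe_lt_iff.1 h1)] with μ h3
  exact lt_of_le_of_lt (EReal.coe_le_coe_iff.2 (by linarith)) h2

theorem rg_tendsto_real (h : PshW H u) (hd : Dn univ u) (hp : 0 < p) (hx : u x ≠ ⊥) :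
    Tendsto (fun μ => G.rg H p μ u x) atTop (𝓝 ((u x).toReal + G.cor p x)) := by
  have h1 := G.rg_tendsto h hd hp x
  rw [← EReal.coe_toReal (h.lt_top x).ne hx, ← EReal.coe_add] at h1
  exact EReal.tendsto_coe.1 h1

theorem rg_tendsto_bot (h : PshW H u) (hd : Dn univ u) (hp : 0 < p) (hx : u x = ⊥) :
    Tendsto (fun μ => G.rg H p μ u x) atTop atBot := by
  refine tendsto_atBot.2 fun b => ?_
  filter_upwards [G.ev_rg_le h hd hp (b := b - G.cor p x) (hx ▸ EReal.bot_lt_coe _)] with μ h1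
  linarith

theorem lam_nonneg (H : KP A) (p : ℝ) (μ : ℕ) (u : M → EReal) (x : M) : 0 ≤ G.lam H p μ u x :=
  le_max_right _ _

theorem rg_cur (h : PshW H u) (hd : Dn univ u) (hp : 0 < p) (μ : ℕ) {i : A.ι}
    (hx : x ∈ (A.e i).source) (ξ : Fin n → ℂ) :
    0 ≤ qf (cur H i x) ξ + qf (hsf A (G.rg H p μ u) i x) ξ +
      (G.eps p + G.lam H p μ u x) * qf (g i x) ξ := by
  refine ((G.loc_aj h hd μ).cur_lse hp hx (fun j hj => (G.aj_sx h hd μ hj hx).2) ξ).trans ?_
  refine add_le_add le_rfl (mul_le_mul_of_nonneg_right ?_ (G.nn i x hx ξ))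
  linarith [le_max_left (G.los p (G.aj H μ u) x - G.eps p) 0, show G.lam H p μ u x =
    max (G.los p (G.aj H μ u) x - G.eps p) 0 from rfl]

theorem measurable_lam [MeasurableSpace M] [OpensMeasurableSpace M] (h : PshW H u)
    (hd : Dn univ u) (p : ℝ) (μ : ℕ) : Measurable (G.lam H p μ u) :=
  ((G.loc_aj h hd μ).measurable_los.sub_const _).max measurable_const

theorem lam_tendsto (h : PshW H u) (hd : Dn univ u) (hp : 0 < p) (hx : u x ≠ ⊥) :
    Tendsto (fun μ => G.lam H p μ u x) atTop (𝓝 0) := by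
  have e := EReal.coe_toReal (h.lt_top x).ne hx
  have hc : ContinuousAt (fun c : ℝ => G.eps p * Real.exp (p * c) - G.eps p) 0 := by fun_prop
  refine tendsto_order.2 ⟨fun a ha => Eventually.of_forall fun μ =>
    ha.trans_le (G.lam_nonneg H p μ u x), fun a ha => ?_⟩
  obtain ⟨c, h1, h2⟩ := (((hc.eventually_lt_const (by simpa using ha)).filter_mono
    nhdsWithin_le_nhds).and (self_mem_nhdsWithin (s := Ioi (0 : ℝ)))).exists
  have h3 : u x < (((u x).toReal + c : ℝ) : EReal) := lt_coe_add e.ge h2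
  filter_upwards [G.ev_aj_le h hd h3] with μ h4
  refine max_lt (lt_of_le_of_lt (sub_le_sub_right (G.los_le hp fun i j hi hj => ?_) _) h1) ha
  have h5 := G.le_aj h hd μ hi
  rw [← e, EReal.coe_le_coe_iff] at h5
  linarith [h4 j hj]

theorem aj_mono (h : PshW H u) (hd : Dn univ u) (h' : PshW H u') (hd' : Dn univ u') (μ : ℕ)
    {j : A.ι} (hx : x ∈ tsupport (G.χ j)) {a : ℝ}
    (hle : ∀ y, G.Near (3 * G.rad μ) x y → u' y ≤ u y + a) :
    G.aj H μ u' j x ≤ G.aj H μ u j x + a := by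
  have h1 := (smOp_smo n).mono _ _ _ _ _ _ a (A.e j).open_target (h j) (dn_uj H hd j)
    (A.e j).open_target (h' j) (dn_uj H hd' j) (G.rad_pos μ) (G.cball hx μ) (G.cball hx μ)
    fun z hz => by
      unfold uj
      rw [add_right_comm]
      exact add_le_add (hle _ ⟨j, hx, z, hz, rfl⟩) le_rfl
  unfold aj
  linarith

/-- the regularization is monotone, local and commutes with constants -/
theorem rg_mono (h : PshW H u) (hd : Dn univ u) (h' : PshW H u') (hd' : Dn univ u') (hp : 0 < p)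
    (μ : ℕ) {a : ℝ} (hle : ∀ y, G.Near (3 * G.rad μ) x y → u' y ≤ u y + a) :
    G.rg H p μ u' x ≤ G.rg H p μ u x + a :=
  G.lse_le hp fun _ hj => G.aj_mono h hd h' hd' μ hj hle

theorem aj_congr (h : PshW H u) (hd : Dn univ u) (h' : PshW H u') (hd' : Dn univ u') (μ : ℕ)
    {j : A.ι} (hx : x ∈ tsupport (G.χ j)) {a : ℝ}
    (he : ∀ y, G.Near (3 * G.rad μ) x y → u' y = u y + a) :
    G.aj H μ u' j x = G.aj H μ u j x + a := by
  have h1 := G.aj_mono h hd h' hd' μ hx fun y hy => (he y hy).le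
  have h2 := G.aj_mono h' hd' h hd μ hx (a := -a) fun y hy => by
    rw [he y hy, add_assoc, ← EReal.coe_add, add_neg_cancel, EReal.coe_zero, add_zero]
  linarith

theorem rg_congr (h : PshW H u) (hd : Dn univ u) (h' : PshW H u') (hd' : Dn univ u') (hp : 0 < p)
    (μ : ℕ) {a : ℝ} (he : ∀ y, G.Near (3 * G.rad μ) x y → u' y = u y + a) :
    G.rg H p μ u' x = G.rg H p μ u x + a := by
  have h1 := G.lse_le (a' := G.aj H μ u') (a := G.aj H μ u) hp fun j hj =>
    (G.aj_congr h hd h' hd' μ hj he).le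
  have h2 := G.lse_le (a' := G.aj H μ u) (a := G.aj H μ u') (c := -a) hp fun j hj => by
    linarith [G.aj_congr h hd h' hd' μ hj he]
  unfold rg
  linarith

/-- far from a compact set the regularization does not see the set -/
theorem ev_far [T2Space M] {K W : Set M} (hK : IsCompact K) (hW : IsOpen W) (hKW : K ⊆ W) :
    ∀ᶠ μ in atTop, ∀ x, x ∉ W → ∀ y, G.Near (3 * G.rad μ) x y → y ∉ K := by
  have h1 : ∀ᶠ μ in atTop, ∀ j ∈ {j | (K ∩ (A.e j).source).Nonempty}, ∀ x ∈ tsupport (G.χ j),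
      x ∉ W → ∀ z ∈ closedBall (A.e j x) (3 * G.rad μ), (A.e j).symm z ∉ K := by
    refine (eventually_all_finite (G.lf K hK)).2 fun j _ => ?_
    have c1 : IsCompact (A.e j '' (tsupport (G.χ j) ∩ Wᶜ)) :=
      ((G.cpt j).inter_right hW.isClosed_compl).image_of_continuousOn
        ((A.e j).continuousOn.mono fun x hx => G.sub j hx.1)
    have o1 : IsOpen ((A.e j).target ∩ (A.e j).symm ⁻¹' Kᶜ) :=
      (A.e j).isOpen_inter_preimage_symm hK.isClosed.isOpen_compl
    obtain ⟨δ, hδ, h2⟩ := exists_inn o1 c1 (by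
      rintro _ ⟨x, hx, rfl⟩
      refine ⟨(A.e j).map_source (G.sub j hx.1), ?_⟩
      rw [mem_preimage, (A.e j).left_inv (G.sub j hx.1)]
      exact fun h => hx.2 (hKW h))
    filter_upwards [G.tendsto_rad.eventually (eventually_le_nhds hδ)] with μ h3 x hx hxW z hz
    exact (h2 ⟨x, ⟨hx, hxW⟩, rfl⟩ (closedBall_subset_closedBall h3 hz)).2
  filter_upwards [h1] with μ h2 x hx
  rintro _ ⟨j, hj, z, hz, rfl⟩ hy
  exact h2 j ⟨_, hy, (A.e j).map_target (G.cball hj μ hz)⟩ x hj hx z hz hy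

/-! ### uniform bounds -/

variable {G}

theorem PB.bsup_le (hL : G.PB H L) {j : A.ι} (hx : x ∈ tsupport (G.χ j)) {ρ b : ℝ}
    (hρ : ρ ≤ G.r) (hb : ∀ z ∈ closedBall (A.e j x) ρ, u ((A.e j).symm z) ≤ b) :
    bsup (uj H u j) (A.e j x) ρ ≤ ((b + L * ρ + H.wt j (A.e j x) : ℝ) : EReal) := by
  refine Kis.bsup_le fun z hz => (add_le_coe (hb z hz) le_rfl).trans (EReal.coe_le_coe_iff.2 ?_)
  have h1 := (abs_le.1 (hL.2 j x hx z (closedBall_subset_closedBall hρ hz))).2
  nlinarith [hL.1, mem_closedBall.1 hz]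

theorem PB.le_of_bsup (hL : G.PB H L) {j : A.ι} (hx : x ∈ tsupport (G.χ j)) {ρ b : ℝ}
    (hρ : ρ ≤ G.r) (hb : bsup (uj H u j) (A.e j x) ρ ≤ ((b + H.wt j (A.e j x) : ℝ) : EReal))
    {z : Cn n} (hz : z ∈ closedBall (A.e j x) ρ) :
    u ((A.e j).symm z) ≤ ((b + L * ρ : ℝ) : EReal) := by
  have h2 := add_coe_le_iff.1 ((le_bsup (uj H u j) hz).trans hb)
  refine h2.trans (EReal.coe_le_coe_iff.2 ?_)
  have h1 := (abs_le.1 (hL.2 j x hx z (closedBall_subset_closedBall hρ hz))).1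
  nlinarith [hL.1, mem_closedBall.1 hz]

variable (G)

theorem rg_le (h : PshW H u) (hd : Dn univ u) (hL : G.PB H L) (hp : 0 < p) (μ : ℕ) {b : ℝ}
    (hb : ∀ y, G.Near (3 * G.rad μ) x y → u y ≤ b) :
    G.rg H p μ u x ≤ b + L * (3 * G.rad μ) + G.cor p x :=
  G.lse_le_cor hp fun j hj => G.aj_le h hd μ hj
    (hL.bsup_le hj (G.rad_le_r μ) fun z hz => hb _ ⟨j, hj, z, hz, rfl⟩)

theorem rg_le_const (h : PshW H u) (hd : Dn univ u) (hL : G.PB H L) (hp : 0 < p) (μ : ℕ)
    (hC : ∀ y, u y ≤ C) (x : M) :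
    G.rg H p μ u x ≤ C + L * G.r + Real.log (G.m * G.B) / p := by
  have h1 := G.rg_le (x := x) h hd hL hp μ fun y _ => hC y
  nlinarith [G.cor_le hp x, G.rad_le_r μ, hL.1]

theorem aj_osc (h : PshW H u) (hL : G.PB H L) (hU : G.Unif u C) (μ : ℕ) {i j : A.ι}
    (hi : x ∈ tsupport (G.χ i)) (hj : x ∈ tsupport (G.χ j)) :
    G.aj H μ u j x ≤ G.aj H μ u i x + G.osc C L := by
  have hd := hU.dn h
  have r0 := G.r0
  have h1 := hL.bsup_le (u := u) hi le_rfl fun z _ => hU.1 _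
  obtain ⟨z, hz, h2⟩ := hU.2 i x hi
  have h3 : ((-C - L * G.r + H.wt i (A.e i x) : ℝ) : EReal) ≤
      bsup (uj H u i) (A.e i x) (G.r / 2) := by
    refine le_trans ?_ (le_bsup _ hz)
    refine le_trans ?_ (add_le_add h2 le_rfl)
    rw [← EReal.coe_add, EReal.coe_le_coe_iff]
    have h4 := (abs_le.1 (hL.2 i x hi z (closedBall_subset_closedBall (by linarith) hz))).1
    nlinarith [hL.1, mem_closedBall.1 hz]
  have h4 := bsup_slope (A.e i).open_target (h i) r0 (G.ball i x hi) h3 h1 (G.rad_pos μ)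
    (lam := 3 * G.Λ) (by linarith [G.Λ1]) (G.rad_le μ) (G.smo_spec h hd μ hi).2.2.1
  set c := (2 * C + 2 * L * G.r) / Real.log 2 * Real.log (3 * G.Λ) with hc
  have h5 : bsup (uj H u i) (A.e i x) (3 * G.Λ * G.rad μ) ≤
      ((G.aj H μ u i x + c + H.wt i (A.e i x) : ℝ) : EReal) := by
    refine h4.trans (le_of_eq ?_)
    rw [hc, aj]
    congr 1
    ring
  have h6 : 3 * G.rad μ ≤ G.r / G.Λ := by
    rw [le_div_iff₀ G.L0]
    linarith [G.rad_le μ]
  have h7 := G.aj_le h hd μ hj (hL.bsup_le hj (G.rad_le_r μ)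
    (b := G.aj H μ u i x + c + L * (3 * G.Λ * G.rad μ)) fun w hw => by
      obtain ⟨t1, t2⟩ := G.tr j i x hj hi w (closedBall_subset_closedBall h6 hw)
      have t3 := hL.le_of_bsup hi (by linarith [G.rad_le μ]) h5
        (z := A.e i ((A.e j).symm w)) (mem_closedBall.2 (t2.trans (by
          nlinarith [mem_closedBall.1 hw, G.L0])))
      rwa [(A.e i).left_inv t1] at t3)
  unfold osc
  nlinarith [G.rad_le μ, G.rad_le' μ, hL.1]

theorem lam_le (h : PshW H u) (hL : G.PB H L) (hU : G.Unif u C) (hp : 0 < p) (μ : ℕ) (x : M) :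
    G.lam H p μ u x ≤ G.eps p * Real.exp (p * G.osc C L) :=
  max_le ((sub_le_self _ (G.eps_nonneg hp)).trans
    (G.los_le hp fun _ _ hi hj => G.aj_osc h hL hU μ hi hj))
    (mul_nonneg (G.eps_nonneg hp) (Real.exp_pos _).le)

theorem tendsto_eps {q : ℕ → ℝ} (hq : Tendsto q atTop atTop) :
    Tendsto (fun ν => G.eps (q ν)) atTop (𝓝 0) := hq.const_div_atTop _

end BG

end Crest.Agent.X261.Reg
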