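import Crest.Agent.X261.Reg.Main
import Crest.Agent.X261.Hs.G
import Crest.Agent.X261.Top.Defs
import Crest.Agent.X277.AN.IntT

/-!
# Row 261, package REG (helper71), file `Ap`

The regularizations `G.rg` in the language `Hs.Ap` of step (1) of JET.
-/

set_option autoImplicit false
set_option linter.dupNamespace false
set_option linter.unusedSectionVars false

open Set Filter Topology Metric MeasureTheory
open scoped ContDiff ComplexConjugate

noncomputable section

namespace Crest.Agent.X261.Reg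

open Crest.Agent.R275.Geo Crest.Agent.R275.Core144
open Crest.Agent.R273.Defs_333 (HM)
open Crest.Agent.R273.Kah_333 (Kah)
open Crest.Agent.R273.Vm_333 (vm)
open Crest.Agent.R273.ExpI3_772 (lam)
open Crest.Agent.R281.Kp_487 (KP)
open Crest.Agent.X277.AN (Mat map_vm_chart meas_chart_set ae_vm_chart)
open Crest.Agent.X261.Psh
open Crest.Agent.X261.Hs (Ap)

variable {n : ℕ} {M : Type} [TopologicalSpace M] {A : Atl n M}

theorem pshW_top {L : LB A} {h : HM L} {u : M → EReal} : Top.PshW h u ↔ PshW (kp h) u := Iff.rfl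

theorem BG.off [T2Space M] {g : Mat A} (G : BG A g) {H : KP A} {u u' : M → EReal} (h : PshW H u)
    (hd : Dn univ u) (h' : PshW H u') (hd' : Dn univ u') {K W : Set M} (hK : IsCompact K)
    (hW : IsOpen W) (hKW : K ⊆ W) {a : ℝ} (hle : ∀ x, x ∉ K → u x - (a : EReal) ≤ u' x) :
    ∀ᶠ μ in atTop, ∀ p, 0 < p → ∀ x, x ∉ W → G.rg H p μ u x - a ≤ G.rg H p μ u' x := by
  filter_upwards [G.ev_far hK hW hKW] with μ h1 p hp x hx
  have h2 := G.rg_mono (x := x) h' hd' h hd hp μ (a := a) fun y hy =>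
    (EReal.sub_le_iff_le_add (Or.inl (EReal.coe_ne_bot a)) (Or.inl (EReal.coe_ne_top a))).1
      (hle y (h1 x hx y hy))
  linarith

variable [Countable A.ι] [MeasurableSpace M] [BorelSpace M]

theorem ae_vm_of_chart (vol : HM (KB A)⁻¹) {p : M → Prop}
    (hp : ∀ i, ∀ᵐ w ∂(lam n), w ∈ (A.e i).target → p ((A.e i).symm w)) : ∀ᵐ y ∂(vm vol), p y := by
  have h1 : ∀ i, ∀ᵐ y ∂(vm vol), y ∈ (A.e i).source → p y := fun i => by
    have hS := (A.e i).open_target.measurableSet
    have hT := meas_chart_set (A := A) (i := i) hS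
    have h2 := (withDensity_absolutelyContinuous _ (X277.AN.dz vol i)).ae_le
      ((ae_restrict_iff' hS).2 (hp i))
    rw [← map_vm_chart vol hS subset_rfl] at h2
    have h3 := ae_of_ae_map (((A.e i).continuousOn.mono inter_subset_left).aemeasurable hT) h2
    filter_upwards [(ae_restrict_iff' hT).1 h3] with y h4 hy
    have h5 := h4 ⟨hy, (A.e i).map_source hy⟩
    rwa [(A.e i).left_inv hy] at h5
  filter_upwards [ae_all_iff.2 h1] with y hy
  obtain ⟨i, hi⟩ := A.cover y
  exact hy i hi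

variable {H : KP A} {u u' : M → EReal}

theorem PshW.ae_ne_bot (h : PshW H u) (hd : Dn univ u) (vol : HM (KB A)⁻¹) :
    ∀ᵐ x ∂(vm vol), u x ≠ ⊥ := ae_vm_of_chart vol fun i =>
  ((h i).dn_ae (lam n) (A.e i).open_target (dn_uj H hd i)).mono fun _ h1 hw =>
    add_coe_ne_bot.1 (h1 hw)

theorem PshW.le_of_ae (h : PshW H u) {g : M → EReal} (hg : UpperSemicontinuous g)
    (vol : HM (KB A)⁻¹) {V : Set M} {x : M} (hV : V ∈ 𝓝 x)
    (hle : ∀ᵐ y ∂(vm vol), y ∈ V → u y ≤ g y) : u x ≤ g x := by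
  obtain ⟨i, hi⟩ := A.cover x
  have hz := (A.e i).map_source hi
  have hc : Tendsto (A.e i).symm (𝓝 (A.e i x)) (𝓝 x) := by
    have := (A.e i).continuousAt_symm hz
    rwa [ContinuousAt, (A.e i).left_inv hi] at this
  refine le_of_forall_gt_imp_ge_of_dense fun b hb => ?_
  obtain ⟨c, h1, h2⟩ := EReal.lt_iff_exists_real_btwn.1 hb
  have h3 := (h i).le_of_ae (lam n) (A.e i).open_target hz
    (g := fun z => ((c + H.wt i z : ℝ) : EReal))
    ((continuous_coe_real_ereal.continuousAt.comp (continuousAt_const.add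
      (R281.Kp_487.wt_contDiffAt H i hz).continuousAt)).upperSemicontinuousAt)
    (inter_mem (inter_mem (hc hV) (hc (hg x _ h1))) ((A.e i).open_target.mem_nhds hz))
    ((ae_vm_chart vol (i := i) hle).mono fun w h4 hw =>
      add_le_coe ((h4 hw.2 hw.1.1).trans (le_of_lt hw.1.2)) le_rfl)
  rw [uj_e H u hi, add_coe_le_iff, add_sub_cancel_right] at h3
  exact h3.trans h2.le

variable [T2Space M]

/-- the regularizations with `p = ν + 1` -/
theorem ap_of_rg (K : Kah A) (G : BG A K.g) {L : LB A} (h : HM L) (vol : HM (KB A)⁻¹)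
    (hu : PshW (kp h) u) {Lp C : ℝ} (hL : G.PB (kp h) Lp) (hU : G.Unif u C) (h0 : ∀ x, u x ≤ 0) :
    Ap K h vol (fun x => (u x).toReal) (fun ν μ => G.rg (kp h) (ν + 1) μ u)
      (fun ν μ => G.lam (kp h) (ν + 1) μ u) (fun ν => G.eps (ν + 1)) (fun ν => G.cor (ν + 1))
      (Lp * G.r + |Real.log (G.m * G.B)|) := by
  have hd := hU.dn hu
  have hp : ∀ ν : ℕ, (0 : ℝ) < ν + 1 := fun ν => by positivity
  have hq : Tendsto (fun ν : ℕ => (ν : ℝ) + 1) atTop atTop :=
    tendsto_atTop_add_const_right _ _ tendsto_natCast_atTop_atTop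
  have hr := mul_nonneg hL.1 G.r0.le
  refine ⟨⟨fun ν μ => G.rg_sm hu hd _ μ, fun ν x => G.rg_anti hu hd (hp ν) x, fun ν x => ?_,
    fun ν μ => G.measurable_lam hu hd _ μ, fun ν μ x => G.lam_nonneg _ _ _ _ x,
    fun ν => ⟨_, fun μ x => G.lam_le hu hL hU (hp ν) μ x⟩,
    fun ν => (hu.ae_ne_bot hd vol).mono fun x hx => G.lam_tendsto hu hd (hp ν) hx,
    fun ν => G.eps_nonneg (hp ν), G.tendsto_eps hq, fun ν μ i x hx ξ => ?_⟩,
    hu.measurable.ereal_toReal, fun x => ?_,
    fun ν => (hu.ae_ne_bot hd vol).mono fun x hx => G.rg_tendsto_real hu hd (hp ν) hx,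
    fun ν x => G.cor_nonneg (hp ν) x, fun x => ?_⟩
  · have h1 := G.rg_le_const (C := 0) hu hd hL (hp ν) 0 h0 x
    have h2 : Real.log (G.m * G.B) / (ν + 1) ≤ |Real.log (G.m * G.B)| :=
      (div_le_div_of_nonneg_right (le_abs_self _) (hp ν).le).trans
        (div_le_self (abs_nonneg _) (by linarith [(ν.cast_nonneg : (0 : ℝ) ≤ ν)]))
    linarith
  · unfold Jet.HL.Th
    simp only [Hc.hq_eq_qf]
    exact G.rg_cur hu hd (hp ν) μ hx ξ
  · exact (EReal.toReal_nonpos (h0 x)).trans (by positivity)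
  · exact squeeze_zero (fun ν => G.cor_nonneg (hp ν) x) (fun ν => G.cor_le (hp ν) x)
      (hq.const_div_atTop _)

end Crest.Agent.X261.Reg
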