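import Crest.Agent.X261.Reg.Defs
import Crest.Agent.X261.Psh.Cvx

/-!
# Row 261, package REG (helper71), file `Loc`

Local smoothing operators (`exists_smOp`, `smo`) and the slope lemma for suprema over balls.
-/

set_option autoImplicit false
set_option linter.dupNamespace false
set_option linter.unusedSectionVars false
set_option linter.style.haveILetI false

open Set Filter Topology Metric MeasureTheory
open scoped ContDiff ComplexConjugate

noncomputable section

namespace Crest.Agent.X261.Reg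

open Crest.Agent.R275.Geo Crest.Agent.R275.Core144
open Crest.Agent.R273.Hess_333 Crest.Agent.R273.HessB_333
open Crest.Agent.R257.HoB_843 (lvE)
open Crest.Agent.X277.AN (qf)
open Crest.Agent.X261.Psh Crest.Agent.X261.Psh.Kis

variable {n : ℕ}

theorem qf_eq_lvE {u : Cn n → ℝ} {z : Cn n} (hu : ContDiffAt ℝ ∞ u z) (ξ : Fin n → ℂ) :
    qf (hess u z) ξ = lvE u z (WithLp.toLp 2 ξ) := by
  have h1 : qf (hess u z) ξ = R273.Defs_333.lev u z (WithLp.toLp 2 ξ) / 4 :=
    hq_re hu (WithLp.toLp 2 ξ)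
  rw [h1]
  unfold R273.Defs_333.lev lvE
  rw [iteratedFDeriv_two_apply, iteratedFDeriv_two_apply]
  simp
  ring

theorem qf_nonneg_of_psh {D : Set (Cn n)} {u : Cn n → ℝ} {z : Cn n}
    (h : IsPsh D fun x => (u x : EReal)) (hz : D ∈ 𝓝 z) (hu : ContDiffAt ℝ ∞ u z)
    (ξ : Fin n → ℂ) : 0 ≤ qf (hess u z) ξ := by
  rw [qf_eq_lvE hu]
  exact h.lvE_nonneg hz (hu.of_le (by norm_cast)) _

theorem qf_comp_nonneg {u : Cn n → ℝ} {T : Cn n → Cn n} {z : Cn n}
    (hu : ContDiffAt ℝ ∞ u (T z)) (hT : ∀ᶠ w in 𝓝 z, DifferentiableAt ℂ T w)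
    (h : ∀ ξ, 0 ≤ qf (hess u (T z)) ξ) (ξ : Fin n → ℂ) :
    0 ≤ qf (hess (fun w => u (T w)) z) ξ := by
  refine (h fun c => ∑ a, fderiv ℂ T z (EuclideanSpace.single a 1) c * ξ a).trans_eq ?_
  unfold qf
  congr 1
  simp only [hess_comp hu hT, Finset.sum_mul, Finset.mul_sum, map_sum, map_mul]
  have sw : ∀ F : Fin n → Fin n → Fin n → Fin n → ℂ,
      ∑ c, ∑ d, ∑ b, ∑ a, F a b c d = ∑ a, ∑ b, ∑ c, ∑ d, F a b c d := fun F => by
    simp only [← Finset.sum_product']
    exact Finset.sum_equiv ⟨fun p => (p.2.2.2, p.2.2.1, p.1, p.2.1),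
      fun p => (p.2.2.1, p.2.2.2, p.2.1, p.1), fun _ => rfl, fun _ => rfl⟩ (by simp) (by simp)
  refine Eq.trans ?_ (sw _)
  refine Finset.sum_congr rfl fun c _ => Finset.sum_congr rfl fun d _ =>
    Finset.sum_congr rfl fun b _ => Finset.sum_congr rfl fun a _ => by ring

section bs

variable {E : Type*} [NormedAddCommGroup E] [NormedSpace ℂ E] [FiniteDimensional ℂ E]
  {D : Set E} {f : E → EReal}

theorem isPsh_bsup (hD : IsOpen D) (hf : IsPsh D f) {ρ : ℝ} (hρ : 0 < ρ) :
    IsPsh (inn D ρ) fun x => bsup f x ρ := by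
  have h := (tube_sup (D' := inn D ρ) (I := {Real.log ρ}) hD hf fun x hx s hs => by
    rw [mem_singleton_iff.1 hs, Real.exp_log hρ]; exact hx).slice (mem_singleton _)
  simpa only [Real.exp_log hρ] using h

theorem dn_bsup (hD : IsOpen D) (hd : Dn D f) {ρ : ℝ} (hρ : 0 < ρ) :
    Dn (inn D ρ) fun x => bsup f x ρ :=
  (hd.mono (inn_subset hρ.le)).of_le (isOpen_inn hD hρ.le) fun x _ => self_le_bsup f x hρ.le

theorem mem_inn_inn {z : E} {ε : ℝ} (h : closedBall z (3 * ε) ⊆ D) :
    z ∈ inn (inn D (2 * ε)) ε := fun y hy w hw => h (by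
  rw [mem_closedBall] at *
  linarith [dist_triangle w y z])

/-- the slope lemma -/
theorem bsup_slope (hD : IsOpen D) (hf : IsPsh D f) {z : E} {r : ℝ} (hr : 0 < r)
    (hB : closedBall z r ⊆ D) {α β a : ℝ} (h1 : (α : EReal) ≤ bsup f z (r / 2))
    (h2 : bsup f z r ≤ β) {ε lam : ℝ} (hε : 0 < ε) (hl : 1 ≤ lam) (hle : lam * ε ≤ r / 2)
    (ha : bsup f z ε ≤ a) :
    bsup f z (lam * ε) ≤ ((a + (β - α) / Real.log 2 * Real.log lam : ℝ) : EReal) := by
  have T := tube_sup (D' := {z}) (I := Iic (Real.log r)) hD hf fun x hx s hs => by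
    rw [mem_singleton_iff.1 hx]
    exact (closedBall_subset_closedBall ((Real.le_log_iff_exp_le hr).1 hs)).trans hB
  have hl0 : 0 < lam := by linarith
  have hεr : ε ≤ r / 2 := by nlinarith
  have l2 : 0 < Real.log 2 := Real.log_pos (by norm_num)
  have e1 : Real.log (r / 2) = Real.log r - Real.log 2 := Real.log_div hr.ne' two_ne_zero
  have e2 : Real.log (lam * ε) = Real.log lam + Real.log ε := Real.log_mul hl0.ne' hε.ne'
  have s1 : Real.log ε ≤ Real.log (r / 2) := Real.log_le_log hε hεr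
  have s2 : Real.log (lam * ε) ≤ Real.log (r / 2) := Real.log_le_log (by positivity) hle
  have s3 : 0 ≤ Real.log lam := Real.log_nonneg hl
  have d0 : 0 < Real.log r - Real.log ε := by linarith
  set κ := (β - a) / (Real.log r - Real.log ε) with hκ
  have hκ' : κ * (Real.log r - Real.log ε) = β - a := div_mul_cancel₀ _ d0.ne'
  have key : ∀ s ∈ Icc (Real.log ε) (Real.log r),
      bsup f z (Real.exp s) ≤ ((a - κ * Real.log ε + κ * s : ℝ) : EReal) := fun s hs =>
    T.le_affine ordConnected_Iic (mem_singleton z) (show Real.log ε ∈ Iic _ from by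
      rw [mem_Iic]; linarith) (mem_Iic.2 le_rfl)
      (by rw [Real.exp_log hε]; exact ha.trans (EReal.coe_le_coe_iff.2 (by linarith)))
      (by rw [Real.exp_log hr]; exact h2.trans (EReal.coe_le_coe_iff.2 (by linarith))) hs
  have k1 := key (Real.log (r / 2)) ⟨s1, by linarith⟩
  rw [Real.exp_log (by positivity)] at k1
  have k2 := EReal.coe_le_coe_iff.1 (h1.trans k1)
  have k3 := key (Real.log (lam * ε)) ⟨by linarith, by linarith⟩
  rw [Real.exp_log (by positivity)] at k3
  refine k3.trans (EReal.coe_le_coe_iff.2 ?_)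
  have k4 : κ ≤ (β - α) / Real.log 2 := by
    rw [le_div_iff₀ l2]
    rw [e1] at k2
    nlinarith
  rw [e2]
  nlinarith

theorem ev_bsup_le {z : E} (hf : UpperSemicontinuousAt f z) {b : EReal} (hb : f z < b) :
    ∀ᶠ ρ : ℝ in 𝓝 0, bsup f z ρ ≤ b := by
  obtain ⟨δ, hδ, h⟩ := nhds_basis_closedBall.eventually_iff.1 (hf b hb)
  filter_upwards [eventually_le_nhds hδ] with ρ hρ
  exact bsup_le fun y hy => (h (closedBall_subset_closedBall hρ hy)).le

end bs

theorem exists_smOp (n : ℕ) : ∃ S : ℝ → (Cn n → EReal) → Cn n → ℝ, SmOp S := by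
  letI : MeasurableSpace (Cn n) := borel _
  haveI : BorelSpace (Cn n) := ⟨rfl⟩
  let μ : Measure (Cn n) := Measure.addHaar
  obtain ⟨κ, hκ, hs⟩ := exists_ker (E := Cn n) μ
  refine ⟨fun ε f => cv μ κ ε fun y => (bsup f y (2 * ε)).toReal, ?_, ?_⟩
  · intro D f ε z hD hf hd hε hB
    have h2 : 0 < 2 * ε := by positivity
    have P := isPsh_bsup hD hf h2
    have Q := dn_bsup hD hd h2
    have O := isOpen_inn hD h2.le
    have hz := mem_inn_inn hB
    have hsm := P.contDiffAt_cv O Q hκ hs hε hz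
    have nε : ‖(ε : ℂ)‖ = ε := by rw [Complex.norm_real, Real.norm_eq_abs, abs_of_pos hε]
    refine ⟨hsm, qf_nonneg_of_psh (P.cv O Q hκ hε) ((isOpen_inn O hε.le).mem_nhds hz) hsm, ?_, ?_⟩
    · rw [← P.rg_eq_cv O Q hκ hε hz]
      haveI := km_prob hκ
      refine le_eint (km_ae' hκ fun v hv => bsup_le fun y hy => le_bsup f ?_)
      have h3 := mem_cball (z := z) (ζ := (ε : ℂ)) hv
      rw [nε] at h3
      rw [mem_closedBall] at *
      linarith [dist_triangle_right y (z + (ε : ℂ) • v) z]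
    · rw [← P.rg_eq_cv O Q hκ hε hz]
      refine rg_le hκ fun y hy => bsup_le fun w hw => le_bsup f ?_
      rw [nε] at hy
      rw [mem_closedBall] at *
      linarith [dist_triangle w y z]
  · intro D D' f f' ε z a hD hf hd hD' hf' hd' hε hB hB' hle
    have h2 : 0 < 2 * ε := by positivity
    have P := isPsh_bsup hD hf h2
    have Q := dn_bsup hD hd h2
    have O := isOpen_inn hD h2.le
    have hz := mem_inn_inn hB
    have P' := isPsh_bsup hD' hf' h2
    have Q' := dn_bsup hD' hd' h2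
    have O' := isOpen_inn hD' h2.le
    have hz' := mem_inn_inn hB'
    have I := (P.dn_integrableOn μ O Q (isCompact_closedBall z ε) hz).mono_set
      ball_subset_closedBall
    have I' := (P'.dn_integrableOn μ O' Q' (isCompact_closedBall z ε) hz').mono_set
      ball_subset_closedBall
    have Ic : IntegrableOn (fun _ : Cn n => a) (ball z ε) μ :=
      integrableOn_const measure_ball_lt_top.ne
    have e := cv_add hκ hε I Ic
    rw [cv_const hκ] at e
    rw [← e]
    refine cv_mono_ae hκ hε I' (I.add Ic) ?_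
    filter_upwards [P.dn_ae μ O Q, P'.dn_ae μ O' Q'] with y h3 h4 hy
    have y1 := hz (ball_subset_closedBall hy)
    have y2 := hz' (ball_subset_closedBall hy)
    have h5 : bsup f' y (2 * ε) ≤ bsup f y (2 * ε) + a := bsup_le fun w hw =>
      (hle w (by
        rw [mem_ball] at hy
        rw [mem_closedBall] at *
        linarith [dist_triangle w y z])).trans (add_le_add (le_bsup f hw) le_rfl)
    rw [← EReal.coe_toReal (P.lt_top y y1).ne (h3 y1),
      ← EReal.coe_toReal (P'.lt_top y y2).ne (h4 y2), ← EReal.coe_add] at h5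
    exact EReal.coe_le_coe_iff.1 h5

/-- the fixed smoothing operators -/
def smo (n : ℕ) : ℝ → (Cn n → EReal) → Cn n → ℝ := Classical.choose (exists_smOp n)

theorem smOp_smo (n : ℕ) : SmOp (smo n) := Classical.choose_spec (exists_smOp n)

end Crest.Agent.X261.Reg
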