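import Crest.Agent.X261.Reg.Loc

/-!
# Row 261, package REG (helper71), file `Lse`

The log-sum-exp gluing `G.lse p a`: monotonicity, smoothness, curvature, loss of curvature.
-/

set_option autoImplicit false
set_option linter.dupNamespace false
set_option linter.unusedSectionVars false

open Set Filter Topology Metric
open scoped ContDiff ComplexConjugate

noncomputable section

namespace Crest.Agent.X261.Reg

open Crest.Agent.R275.Geo Crest.Agent.R275.Core144
open Crest.Agent.R273.Hess_333 Crest.Agent.R273.HessB_333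
open Crest.Agent.R273.Kah_333 (hsf)
open Crest.Agent.R273.FIa0_597 (gr)
open Crest.Agent.R273.GreenM_5 (ci mem_ci)
open Crest.Agent.X277.AN

variable {n : ℕ} {M : Type} [TopologicalSpace M] {A : Atl n M}

/-- the positivity `(U, ∂U, ∂∂̄U + q) ≥ 0` -/
structure LE (q : (Fin n → ℂ) → ℝ) (U : Cn n → ℝ) (z : Cn n) : Prop where
  sm : ContDiffAt ℝ ∞ U z
  pos : ∀ (t : ℂ) (ξ : Fin n → ℂ), 0 ≤ U z * ‖t‖ ^ 2 + 2 * (conj t * pr (gr U z) ξ).re +
    (qf (hess U z) ξ + q ξ)

namespace LE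

variable {q q' : (Fin n → ℂ) → ℝ} {U V : Cn n → ℝ} {z : Cn n}

theorem add (h : LE q U z) (h' : LE q' V z) : LE (fun ξ => q ξ + q' ξ) (fun w => U w + V w) z := by
  refine ⟨h.sm.add h'.sm, fun t ξ => ?_⟩
  have h1 := h.pos t ξ
  have h2 := h'.pos t ξ
  rw [gr_add (h.sm.differentiableAt (by simp)) (h'.sm.differentiableAt (by simp)),
    hess_add h.sm h'.sm, pr_add, mul_add (conj t), Complex.add_re, qf_eq_fm, fm_add,
    Complex.add_re, ← qf_eq_fm, ← qf_eq_fm]
  linarith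

theorem sum {ι : Type*} (s : Finset ι) {Q : ι → (Fin n → ℂ) → ℝ} {F : ι → Cn n → ℝ}
    (h : ∀ k ∈ s, LE (Q k) (F k) z) :
    LE (fun ξ => ∑ k ∈ s, Q k ξ) (fun w => ∑ k ∈ s, F k w) z := by
  classical
  induction s using Finset.induction_on with
  | empty =>
    refine ⟨by simpa using contDiffAt_const, fun t ξ => ?_⟩
    simp only [Finset.sum_empty, gr_const, hess_const', pr_zero, qf_eq_fm, fm_zero]
    simp
  | insert k s hk ih =>
    simp only [Finset.sum_insert hk]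
    exact (h k (by simp)).add (ih fun l hl => h l (by simp [hl]))

theorem mul_lp {Θ : Matrix (Fin n) (Fin n) ℂ} (h : LE q U z) (h0 : 0 ≤ U z) (h' : LP Θ V z) :
    LE (fun ξ => V z * q ξ + U z * V z * qf Θ ξ) (fun w => U w * V w) z := by
  refine ⟨h.sm.mul h'.sm, fun t ξ => ?_⟩
  have h1 := LP.prod_ineq (fun t => h.pos t ξ) (fun t => h'.pos t ξ) h0 h'.nonneg t
  rw [gr_mul (h.sm.differentiableAt (by simp)) h'.diff, hess_mul h.sm h'.sm, pr_add, pr_smul,
    pr_smul, qf_eq_fm, fm_add, fm_add, fm_add, fm_vecMulVec, fm_vecMulVec, Complex.add_re,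
    Complex.add_re, fm_smul_re, fm_smul_re]
  simp only [qf_eq_fm] at h1 ⊢
  linarith

theorem lp {Θ : Matrix (Fin n) (Fin n) ℂ} (h : LE q U z) (hq : ∀ ξ, q ξ ≤ U z * qf Θ ξ) :
    LP Θ U z := ⟨h.sm, fun t ξ => by
  have h1 := h.pos t ξ
  have h2 := hq ξ
  simp only [qf_eq_fm] at h1 h2
  linarith⟩

end LE

theorem exists_cpt_nhds (A : Atl n M) (x : M) : ∃ K ∈ 𝓝 x, IsCompact K := by
  obtain ⟨i, hi⟩ := A.cover x
  obtain ⟨r, hr, hB⟩ := nhds_basis_closedBall.mem_iff.1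
    ((A.e i).open_target.mem_nhds ((A.e i).map_source hi))
  refine ⟨(A.e i).symm '' closedBall (A.e i x) r, ?_,
    (isCompact_closedBall _ _).image_of_continuousOn ((A.e i).continuousOn_symm.mono hB)⟩
  have h := (A.e i).symm.image_mem_nhds ((A.e i).map_source hi) (closedBall_mem_nhds _ hr)
  rwa [(A.e i).left_inv hi] at h

namespace BG

variable {g : Mat A} (G : BG A g)

theorem fin_J (x : M) : {j | x ∈ tsupport (G.χ j)}.Finite :=
  (G.lf {x} isCompact_singleton).subset fun j hj => ⟨x, rfl, G.sub j hj⟩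

/-- the indices of the cut-off functions that live at `x` -/
def J (x : M) : Finset A.ι := (G.fin_J x).toFinset

theorem mem_J {x : M} {j : A.ι} : j ∈ G.J x ↔ x ∈ tsupport (G.χ j) := (G.fin_J x).mem_toFinset

theorem card_J (x : M) : (G.J x).card ≤ G.m := G.card x _ fun _ hj => G.mem_J.1 hj

theorem mem_of_one {x : M} {j : A.ι} (h : G.χ j x = 1) : x ∈ tsupport (G.χ j) :=
  subset_tsupport _ (by rw [Function.mem_support, h]; exact one_ne_zero)

theorem one_le_m (x : M) : (1 : ℝ) ≤ G.m := by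
  obtain ⟨j, hj⟩ := G.one x
  have := Finset.card_pos.2 ⟨j, G.mem_J.2 (G.mem_of_one hj)⟩
  exact_mod_cast this.trans_le (G.card_J x)

theorem B0 : 0 < G.B := zero_lt_one.trans_le G.B1

theorem ev_J (x : M) : ∀ᶠ y in 𝓝 x, ∀ j, y ∈ tsupport (G.χ j) → j ∈ G.J x := by
  obtain ⟨K, hK, hc⟩ := exists_cpt_nhds A x
  have h1 : ∀ᶠ y in 𝓝 x, ∀ j ∈ {j | (K ∩ (A.e j).source).Nonempty},
      y ∈ tsupport (G.χ j) → j ∈ G.J x := by
    refine (eventually_all_finite (G.lf K hc)).2 fun j _ => ?_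
    by_cases h : x ∈ tsupport (G.χ j)
    · exact Eventually.of_forall fun _ _ => G.mem_J.2 h
    · filter_upwards [(isClosed_tsupport (G.χ j)).isOpen_compl.mem_nhds h] with y hy hy'
      exact absurd hy' hy
  filter_upwards [hK, h1] with y h2 h3 j hj
  exact h3 j ⟨y, h2, G.sub j hj⟩ hj

variable {p : ℝ} {a a' : A.ι → M → ℝ} {x y : M}

theorem sS_eq {s : Finset A.ι} (h : ∀ j, y ∈ tsupport (G.χ j) → j ∈ s) :
    G.sS p a y = ∑ j ∈ s, G.χ j y ^ 2 * Real.exp (p * a j y) := by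
  refine finsum_eq_sum_of_support_subset _ fun j hj => h j (subset_tsupport _ fun h0 => hj ?_)
  simp [h0]

theorem sT_eq {s : Finset A.ι} (h : ∀ j, y ∈ tsupport (G.χ j) → j ∈ s) :
    G.sT p a y = ∑ j ∈ s, (tsupport (G.χ j)).indicator (fun y => Real.exp (p * a j y)) y := by
  refine finsum_eq_sum_of_support_subset _ fun j hj => h j ?_
  by_contra h0
  exact hj (indicator_of_notMem h0 _)

theorem sS_self : G.sS p a x = ∑ j ∈ G.J x, G.χ j x ^ 2 * Real.exp (p * a j x) :=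
  G.sS_eq fun _ hj => G.mem_J.2 hj

theorem sT_self : G.sT p a x = ∑ j ∈ G.J x, Real.exp (p * a j x) := by
  rw [G.sT_eq fun _ hj => G.mem_J.2 hj]
  exact Finset.sum_congr rfl fun j hj => indicator_of_mem (G.mem_J.1 hj) _

theorem sS_ev (x : M) :
    G.sS p a =ᶠ[𝓝 x] fun y => ∑ j ∈ G.J x, G.χ j y ^ 2 * Real.exp (p * a j y) :=
  (G.ev_J x).mono fun _ hy => G.sS_eq hy

theorem exp_le_sS {j : A.ι} (h : G.χ j x = 1) : Real.exp (p * a j x) ≤ G.sS p a x := by
  rw [G.sS_self]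
  have := Finset.single_le_sum (f := fun j => G.χ j x ^ 2 * Real.exp (p * a j x))
    (fun _ _ => by positivity) (G.mem_J.2 (G.mem_of_one h))
  simpa [h] using this

theorem sS_pos : 0 < G.sS p a x := by
  obtain ⟨j, hj⟩ := G.one x
  exact (Real.exp_pos _).trans_le (G.exp_le_sS hj)

theorem sT_nonneg : 0 ≤ G.sT p a x := by
  rw [G.sT_self]
  positivity

theorem lse_le (hp : 0 < p) {c : ℝ} (h : ∀ j, x ∈ tsupport (G.χ j) → a' j x ≤ a j x + c) :
    G.lse p a' x ≤ G.lse p a x + c := by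
  have h1 : G.sS p a' x ≤ G.sS p a x * Real.exp (p * c) := by
    rw [G.sS_self, G.sS_self, Finset.sum_mul]
    refine Finset.sum_le_sum fun j hj => ?_
    rw [mul_assoc, ← Real.exp_add]
    refine mul_le_mul_of_nonneg_left (Real.exp_le_exp.2 ?_) (sq_nonneg _)
    nlinarith [h j (G.mem_J.1 hj)]
  have h2 := Real.log_le_log G.sS_pos h1
  rw [Real.log_mul G.sS_pos.ne' (Real.exp_pos _).ne', Real.log_exp] at h2
  have h3 := mul_le_mul_of_nonneg_left h2 (inv_pos.2 hp).le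
  rw [mul_add, ← mul_assoc, inv_mul_cancel₀ hp.ne', one_mul] at h3
  exact h3

theorem lse_congr (h : ∀ j, x ∈ tsupport (G.χ j) → a' j x = a j x) :
    G.lse p a' x = G.lse p a x := by
  unfold lse
  rw [G.sS_self, G.sS_self, Finset.sum_congr rfl fun j hj => by rw [h j (G.mem_J.1 hj)]]

theorem los_congr (h : ∀ j, x ∈ tsupport (G.χ j) → a' j x = a j x) :
    G.los p a' x = G.los p a x := by
  unfold los
  rw [G.sS_self, G.sS_self, G.sT_self, G.sT_self,
    Finset.sum_congr rfl fun j hj => by rw [h j (G.mem_J.1 hj)]]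
  congr 2
  exact Finset.sum_congr rfl fun j hj => by rw [h j (G.mem_J.1 hj)]

theorem lse_le_cor (hp : 0 < p) {c : ℝ} (h : ∀ j, x ∈ tsupport (G.χ j) → a j x ≤ c) :
    G.lse p a x ≤ c + G.cor p x := by
  have := G.lse_le (a := fun _ _ => 0) (c := c) hp fun j hj => by simpa using h j hj
  unfold cor
  linarith

theorem cor_le_lse (hp : 0 < p) {c : ℝ} (h : ∀ j, x ∈ tsupport (G.χ j) → c ≤ a j x) :
    c + G.cor p x ≤ G.lse p a x := by
  have := G.lse_le (a' := fun _ _ => 0) (a := a) (c := -c) hp fun j hj => by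
    linarith [h j hj]
  unfold cor
  linarith

theorem cor_nonneg (hp : 0 < p) (x : M) : 0 ≤ G.cor p x := by
  obtain ⟨j, hj⟩ := G.one x
  refine mul_nonneg (inv_pos.2 hp).le (Real.log_nonneg ?_)
  simpa using G.exp_le_sS (p := p) (a := fun _ _ => 0) hj

theorem cor_le (hp : 0 < p) (x : M) : G.cor p x ≤ Real.log (G.m * G.B) / p := by
  rw [div_eq_inv_mul]
  refine mul_le_mul_of_nonneg_left (Real.log_le_log G.sS_pos ?_) (inv_pos.2 hp).le
  rw [G.sS_self]
  refine (Finset.sum_le_card_nsmul _ _ G.B fun j _ => by simpa using G.bd j x).trans ?_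
  rw [nsmul_eq_mul]
  exact mul_le_mul_of_nonneg_right (by exact_mod_cast G.card_J x) G.B0.le

/-- the functions `a j` are smooth near the supports -/
def Loc (a : A.ι → M → ℝ) : Prop :=
  ∀ j, ∀ x ∈ tsupport (G.χ j), ∀ i, x ∈ (A.e i).source → SX A (a j) i x

theorem loc_const (c : ℝ) : G.Loc fun _ _ => c := fun _ _ _ _ _ => sx_const c

variable {G}

theorem Loc.sx_sS (h : G.Loc a) {i : A.ι} (hx : x ∈ (A.e i).source) : SX A (G.sS p a) i x := by
  refine SX.congr ?_ hx (G.sS_ev x)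
  refine ContDiffAt.sum (s := G.J x) (f := fun j z => G.χ j ((A.e i).symm z) ^ 2 *
    Real.exp (p * a j ((A.e i).symm z))) fun j hj => ?_
  exact (ContDiffAt.pow (sx_of_sm (G.sm j) hx) 2).mul ((h j x (G.mem_J.1 hj) i hx).cmul p).exp

theorem Loc.sm_sS (h : G.Loc a) : A.Sm (G.sS p a) := sm_of_sx fun _ _ hx => h.sx_sS hx

theorem Loc.sm_lse (h : G.Loc a) : A.Sm (G.lse p a) := sm_of_sx fun _ _ hx =>
  ((h.sx_sS hx).log hx G.sS_pos.ne').cmul p⁻¹

theorem sm_cor (G : BG A g) (p : ℝ) : A.Sm (G.cor p) := (G.loc_const 0).sm_lse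

/-- the curvature of the gluing -/
theorem Loc.cur_lse (h : G.Loc a) (hp : 0 < p) {i : A.ι} (hx : x ∈ (A.e i).source)
    {Θ : Matrix (Fin n) (Fin n) ℂ}
    (hΘ : ∀ j, x ∈ tsupport (G.χ j) → ∀ ξ, 0 ≤ qf Θ ξ + qf (hsf A (a j) i x) ξ) (ξ : Fin n → ℂ) :
    0 ≤ qf Θ ξ + qf (hsf A (G.lse p a) i x) ξ + G.los p a x * qf (g i x) ξ := by
  have li := (A.e i).left_inv hx
  have h1 : ∀ j ∈ G.J x, LE (fun ξ => Real.exp (p * a j x) * (G.B * qf (g i x) ξ) +
      G.χ j x ^ 2 * Real.exp (p * a j x) * qf ((p : ℂ) • Θ) ξ)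
      (fun z => G.χ j ((A.e i).symm z) ^ 2 * Real.exp (p * a j ((A.e i).symm z))) (A.e i x) := by
    intro j hj
    have hj' := G.mem_J.1 hj
    have e1 : LE (fun ξ => G.B * qf (g i x) ξ) (fun z => G.χ j ((A.e i).symm z) ^ 2) (A.e i x) :=
      ⟨ContDiffAt.pow (sx_of_sm (G.sm j) hx) 2, fun t ξ => by
        have := G.lev j i x hx t ξ
        rw [li]
        exact this⟩
    have e2 : LX A ((p : ℂ) • Θ) (fun y => Real.exp (p * a j y)) i x :=
      LX.exp ((h j x hj' i hx).cmul p) fun ξ => by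
        rw [qx_cmul p (h j x hj' i hx), qf_eq_fm, fm_smul_re, ← qf_eq_fm, ← mul_add]
        exact mul_nonneg hp.le (hΘ j hj' ξ)
    have e3 := e1.mul_lp (sq_nonneg _) e2
    simpa only [li] using e3
  have h2 := (LE.sum (G.J x) h1).lp
    (Θ := (p : ℂ) • Θ + ((G.B * (G.sT p a x / G.sS p a x) : ℝ) : ℂ) • g i x) fun ξ => by
      simp only [li]
      rw [← G.sS_self, Finset.sum_add_distrib, ← Finset.sum_mul, ← Finset.sum_mul, ← G.sS_self,
        ← G.sT_self, qf_eq_fm (_ + _), fm_add, Complex.add_re, fm_smul_re _ (g i x), ← qf_eq_fm,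
        ← qf_eq_fm]
      have := (G.sS_pos (p := p) (a := a) (x := x)).ne'
      refine le_of_eq ?_
      field_simp
      ring
  have h3 : LX A _ (G.sS p a) i x := LX.congr (U := fun y => ∑ j ∈ G.J x,
    G.χ j y ^ 2 * Real.exp (p * a j y)) h2 hx (G.sS_ev x)
  have h4 := h3.log hx G.sS_pos ξ
  rw [qf_eq_fm, fm_add, Complex.add_re, fm_smul_re, fm_smul_re, ← qf_eq_fm, ← qf_eq_fm] at h4
  have h5 : qf (hsf A (G.lse p a) i x) ξ =
      p⁻¹ * qf (hsf A (fun y => Real.log (G.sS p a y)) i x) ξ :=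
    qx_cmul p⁻¹ ((h.sx_sS hx).log hx G.sS_pos.ne') ξ
  rw [h5]
  have h6 := mul_nonneg (inv_pos.2 hp).le h4
  refine h6.trans_eq ?_
  unfold los
  field_simp
  ring

variable (G)

/-- the unavoidable loss of curvature -/
def eps (p : ℝ) : ℝ := G.B * G.m / p

theorem eps_nonneg (hp : 0 < p) : 0 ≤ G.eps p := div_nonneg (mul_nonneg G.B0.le G.m.cast_nonneg) hp.le

theorem los_le (hp : 0 < p) {c : ℝ}
    (h : ∀ i j, x ∈ tsupport (G.χ i) → x ∈ tsupport (G.χ j) → a j x ≤ a i x + c) :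
    G.los p a x ≤ G.eps p * Real.exp (p * c) := by
  obtain ⟨i, hi⟩ := G.one x
  have h1 : G.sT p a x ≤ G.m * Real.exp (p * c) * G.sS p a x := by
    rw [G.sT_self]
    refine (Finset.sum_le_card_nsmul _ _ (Real.exp (p * c) * G.sS p a x) fun j hj => ?_).trans ?_
    · refine le_trans ?_ (mul_le_mul_of_nonneg_left (G.exp_le_sS hi) (Real.exp_pos _).le)
      rw [← Real.exp_add, Real.exp_le_exp]
      nlinarith [h i j (G.mem_of_one hi) (G.mem_J.1 hj)]
    · rw [nsmul_eq_mul, mul_assoc]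
      exact mul_le_mul_of_nonneg_right (by exact_mod_cast G.card_J x)
        (mul_pos (Real.exp_pos _) G.sS_pos).le
  have h2 := (div_le_iff₀ G.sS_pos).2 h1
  refine (mul_le_mul_of_nonneg_left h2 (div_pos G.B0 hp).le).trans_eq ?_
  unfold eps
  ring

variable {G}

theorem Loc.usc_sT (h : G.Loc a) : UpperSemicontinuous (G.sT p a) := by
  intro x b hb
  have h1 : ContinuousAt (fun y => ∑ j ∈ G.J x, Real.exp (p * a j y)) x :=
    tendsto_finsetSum _ fun j hj => ((h j x (G.mem_J.1 hj) _ (mem_ci x)).cmul p).exp.contAt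
      (mem_ci x)
  rw [G.sT_self] at hb
  filter_upwards [G.ev_J x, h1.eventually_lt_const hb] with y h2 h3
  rw [G.sT_eq h2]
  refine lt_of_le_of_lt (Finset.sum_le_sum fun j _ => ?_) h3
  exact indicator_le_self' (fun _ _ => (Real.exp_pos _).le) y

theorem Loc.measurable_los [MeasurableSpace M] [OpensMeasurableSpace M] (h : G.Loc a) :
    Measurable (G.los p a) :=
  (h.usc_sT.measurable.div (cont_of_sm h.sm_sS).measurable).const_mul _

end BG

end Crest.Agent.X261.Reg
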